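/-
ROW 314, block T, package GE (grid extension).   helper153.
Cells of the unit grid of `ι → ℝ`;  cellular sets;  `ge_extend`.
-/
import Mathlib

set_option autoImplicit false

open Set Topology

namespace Claimed.Agent.R314

noncomputable section

/-- the unit cube -/
def ge_cube (k : ℕ) : Set (Fin k → ℝ) := Icc 0 1

/-- the boundary of the unit cube -/
def ge_cbd (k : ℕ) : Set (Fin k → ℝ) := {t | t ∈ Icc (0 : Fin k → ℝ) 1 ∧ ∃ i, t i = 0 ∨ t i = 1}

/-- every continuous map of the boundary of the `k`-cube into `S` extends to the cube -/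
def ge_Fill {Y : Type*} [TopologicalSpace Y] (k : ℕ) (S : Set Y) : Prop :=
  ∀ f : (Fin k → ℝ) → Y, ContinuousOn f (ge_cbd k) → MapsTo f (ge_cbd k) S →
    ∃ F : (Fin k → ℝ) → Y, ContinuousOn F (ge_cube k) ∧ MapsTo F (ge_cube k) S ∧ EqOn F f (ge_cbd k)

variable {ι : Type*}

/-- closed cell -/
def ge_cell (a : ι → ℤ) (J : Finset ι) : Set (ι → ℝ) :=
  {x | ∀ i, (i ∈ J → (a i : ℝ) ≤ x i ∧ x i ≤ a i + 1) ∧ (i ∉ J → x i = a i)}

/-- relatively open cell -/
def ge_ocell (a : ι → ℤ) (J : Finset ι) : Set (ι → ℝ) :=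
  {x | ∀ i, (i ∈ J → (a i : ℝ) < x i ∧ x i < a i + 1) ∧ (i ∉ J → x i = a i)}

/-- unions of closed cells -/
def ge_Cellular (K : Set (ι → ℝ)) : Prop :=
  ∀ x ∈ K, ∃ (a : ι → ℤ) (J : Finset ι), x ∈ ge_cell a J ∧ ge_cell a J ⊆ K

theorem ge_ocell_sub (a : ι → ℤ) (J : Finset ι) : ge_ocell a J ⊆ ge_cell a J := fun _ hx i =>
  ⟨fun hi => ⟨((hx i).1 hi).1.le, ((hx i).1 hi).2.le⟩, (hx i).2⟩

theorem ge_cell_bounds {a : ι → ℤ} {J : Finset ι} {x : ι → ℝ} (hx : x ∈ ge_cell a J) (i : ι) :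
    (a i : ℝ) ≤ x i ∧ x i ≤ a i + 1 := by
  by_cases hi : i ∈ J
  · exact (hx i).1 hi
  · rw [(hx i).2 hi]
    exact ⟨le_rfl, by linarith⟩

theorem ge_cell_closed (a : ι → ℤ) (J : Finset ι) : IsClosed (ge_cell a J) := by
  have h : ge_cell a J = ⋂ i, {x : ι → ℝ | (i ∈ J → (a i : ℝ) ≤ x i ∧ x i ≤ a i + 1) ∧ (i ∉ J → x i = a i)} := by
    ext x
    simp [ge_cell]
  rw [h]
  refine isClosed_iInter fun i => ?_
  by_cases hi : i ∈ J
  · have : {x : ι → ℝ | (i ∈ J → (a i : ℝ) ≤ x i ∧ x i ≤ a i + 1) ∧ (i ∉ J → x i = a i)}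
        = {x : ι → ℝ | (a i : ℝ) ≤ x i} ∩ {x : ι → ℝ | x i ≤ a i + 1} := by
      ext x
      simp [hi]
    rw [this]
    exact (isClosed_le continuous_const (continuous_apply i)).inter (isClosed_le (continuous_apply i) continuous_const)
  · have : {x : ι → ℝ | (i ∈ J → (a i : ℝ) ≤ x i ∧ x i ≤ a i + 1) ∧ (i ∉ J → x i = a i)}
        = {x : ι → ℝ | x i = a i} := by
      ext x
      simp [hi]
    rw [this]
    exact isClosed_eq (continuous_apply i) continuous_const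

/-- a point of an open cell which lies in a closed cell: the first cell is a face of the second -/
theorem ge_ocell_cell {a b : ι → ℤ} {J I : Finset ι} {x : ι → ℝ} (hx : x ∈ ge_ocell a J) (hx' : x ∈ ge_cell b I) :
    J ⊆ I ∧ ge_cell a J ⊆ ge_cell b I := by
  have key : ∀ i ∈ J, i ∈ I ∧ a i = b i := by
    intro i hi
    obtain ⟨h1, h2⟩ := (hx i).1 hi
    have hiI : i ∈ I := by
      by_contra hn
      have h3 := (hx' i).2 hn
      rw [h3] at h1 h2
      have h4 : a i < b i := by exact_mod_cast h1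
      have h5 : b i < a i + 1 := by exact_mod_cast h2
      omega
    obtain ⟨h3, h4⟩ := (hx' i).1 hiI
    have h5 : a i < b i + 1 := by
      have : (a i : ℝ) < b i + 1 := by linarith
      exact_mod_cast this
    have h6 : b i < a i + 1 := by
      have : (b i : ℝ) < a i + 1 := by linarith
      exact_mod_cast this
    exact ⟨hiI, by omega⟩
  refine ⟨fun i hi => (key i hi).1, fun y hy i => ?_⟩
  by_cases hi : i ∈ J
  · obtain ⟨hiI, hab⟩ := key i hi
    refine ⟨fun _ => ?_, fun hn => absurd hiI hn⟩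
    rw [← hab]
    exact (hy i).1 hi
  · have h1 : y i = x i := by rw [(hy i).2 hi, (hx i).2 hi]
    rw [h1]
    exact hx' i

theorem ge_ocell_unique {a b : ι → ℤ} {J I : Finset ι} {x : ι → ℝ} (hx : x ∈ ge_ocell a J) (hx' : x ∈ ge_ocell b I) :
    a = b ∧ J = I := by
  have h1 := (ge_ocell_cell hx (ge_ocell_sub b I hx')).1
  have h2 := (ge_ocell_cell hx' (ge_ocell_sub a J hx)).1
  have hJ : J = I := Finset.Subset.antisymm h1 h2
  refine ⟨funext fun i => ?_, hJ⟩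
  by_cases hi : i ∈ J
  · obtain ⟨p1, p2⟩ := (hx i).1 hi
    obtain ⟨q1, q2⟩ := (hx' i).1 (h1 hi)
    have h5 : a i < b i + 1 := by
      have : (a i : ℝ) < b i + 1 := by linarith
      exact_mod_cast this
    have h6 : b i < a i + 1 := by
      have : (b i : ℝ) < a i + 1 := by linarith
      exact_mod_cast this
    omega
  · have p := (hx i).2 hi
    have q := (hx' i).2 (fun h => hi (h2 h))
    rw [p] at q
    exact_mod_cast q

/-- the carrier of a point -/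
def ge_fl (x : ι → ℝ) : ι → ℤ := fun i => ⌊x i⌋

/-- the free coordinates of a point -/
def ge_fr [Fintype ι] (x : ι → ℝ) : Finset ι := by
  classical exact Finset.univ.filter fun i => x i ≠ ⌊x i⌋

theorem ge_mem_carrier [Fintype ι] (x : ι → ℝ) : x ∈ ge_ocell (ge_fl x) (ge_fr x) := by
  classical
  intro i
  constructor
  · intro hi
    have hne : x i ≠ ⌊x i⌋ := by
      simpa [ge_fr] using hi
    exact ⟨lt_of_le_of_ne (Int.floor_le _) (Ne.symm hne), Int.lt_floor_add_one _⟩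
  · intro hi
    have : ¬ (x i ≠ ⌊x i⌋) := by
      simpa [ge_fr] using hi
    exact not_not.1 this

/-- the boundary of a cell is covered by its facets -/
theorem ge_bd [DecidableEq ι] {a : ι → ℤ} {J : Finset ι} {x : ι → ℝ} (hx : x ∈ ge_cell a J) (hn : x ∉ ge_ocell a J) :
    ∃ (b : ι → ℤ), ∃ i ∈ J, x ∈ ge_cell b (J.erase i) ∧ ge_cell b (J.erase i) ⊆ ge_cell a J := by
  have h1 : ∃ i ∈ J, x i = a i ∨ x i = a i + 1 := by
    by_contra hc
    push Not at hc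
    refine hn fun i => ⟨fun hi => ?_, (hx i).2⟩
    obtain ⟨p1, p2⟩ := (hx i).1 hi
    obtain ⟨q1, q2⟩ := hc i hi
    exact ⟨lt_of_le_of_ne p1 (Ne.symm q1), lt_of_le_of_ne p2 q2⟩
  obtain ⟨i, hi, h2⟩ := h1
  obtain ⟨c, hc, hc'⟩ : ∃ c : ℤ, x i = c ∧ (c = a i ∨ c = a i + 1) := by
    rcases h2 with h2 | h2
    · exact ⟨a i, h2, Or.inl rfl⟩
    · exact ⟨a i + 1, by rw [h2]; push_cast; ring, Or.inr rfl⟩
  refine ⟨Function.update a i c, i, hi, fun k => ?_, fun y hy k => ?_⟩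
  · by_cases hk : k = i
    · subst hk
      refine ⟨fun h => absurd h (Finset.notMem_erase _ _), fun _ => ?_⟩
      rw [Function.update_self]
      exact hc
    · rw [Function.update_of_ne hk]
      refine ⟨fun h => (hx k).1 (Finset.mem_of_mem_erase h), fun h => (hx k).2 fun h' => h (Finset.mem_erase.2 ⟨hk, h'⟩)⟩
  · by_cases hk : k = i
    · subst hk
      have h3 := (hy k).2 (Finset.notMem_erase _ _)
      rw [Function.update_self] at h3
      refine ⟨fun _ => ?_, fun h => absurd hi h⟩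
      rw [h3]
      rcases hc' with h | h
      · rw [h]
        exact ⟨le_rfl, by linarith⟩
      · rw [h]
        push_cast
        exact ⟨by linarith, le_rfl⟩
    · have h3 := hy k
      rw [Function.update_of_ne hk] at h3
      refine ⟨fun h => h3.1 (Finset.mem_erase.2 ⟨hk, h⟩), fun h => h3.2 fun h' => h (Finset.mem_of_mem_erase h')⟩

theorem ge_locFin [Finite ι] : LocallyFinite (fun σ : (ι → ℤ) × Finset ι => ge_cell σ.1 σ.2) := by
  intro x
  have := Fintype.ofFinite ι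
  refine ⟨Metric.ball x 1, Metric.ball_mem_nhds x one_pos, ?_⟩
  have hfin : (Set.pi univ fun i => Icc (⌊x i⌋ - 2) (⌊x i⌋ + 1) : Set (ι → ℤ)).Finite :=
    Set.Finite.pi fun i => Set.finite_Icc _ _
  refine (hfin.prod (Set.finite_univ : (univ : Set (Finset ι)).Finite)).subset ?_
  rintro ⟨a, J⟩ ⟨y, hy, hyx⟩
  refine ⟨fun i _ => ?_, mem_univ _⟩
  obtain ⟨p1, p2⟩ := ge_cell_bounds hy i
  have h1 : dist (y i) (x i) < 1 := lt_of_le_of_lt (dist_le_pi_dist y x i) hyx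
  rw [Real.dist_eq, abs_lt] at h1
  have f1 := Int.floor_le (x i)
  have f2 := Int.lt_floor_add_one (x i)
  constructor
  · have : ((⌊x i⌋ - 2 : ℤ) : ℝ) < a i + 1 := by
      push_cast
      linarith
    have h3 : ⌊x i⌋ - 2 < a i + 1 := by exact_mod_cast this
    show ⌊x i⌋ - 2 ≤ a i
    omega
  · have : (a i : ℝ) < ((⌊x i⌋ + 2 : ℤ) : ℝ) := by
      push_cast
      linarith
    have h3 : a i < ⌊x i⌋ + 2 := by exact_mod_cast this
    show a i ≤ ⌊x i⌋ + 1
    omega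

/-- continuity on a union of cells is checked cell by cell -/
theorem ge_contOn_of_cover [Finite ι] {Y : Type*} [TopologicalSpace Y] {Z : Set (ι → ℝ)} {F : (ι → ℝ) → Y}
    (T : Set ((ι → ℤ) × Finset ι)) (hZ : ∀ x ∈ Z, ∃ σ ∈ T, x ∈ ge_cell σ.1 σ.2)
    (h : ∀ σ ∈ T, ContinuousOn F (ge_cell σ.1 σ.2)) : ContinuousOn F Z := by
  have h1 : LocallyFinite (fun σ : T => ge_cell σ.1.1 σ.1.2) :=
    (ge_locFin (ι := ι)).comp_injective Subtype.val_injective
  have h2 : ContinuousOn F (⋃ σ : T, ge_cell σ.1.1 σ.1.2) :=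
    h1.continuousOn_iUnion (fun σ => ge_cell_closed _ _) fun σ => h σ.1 σ.2
  refine h2.mono fun x hx => ?_
  obtain ⟨σ, hσ, hxσ⟩ := hZ x hx
  exact mem_iUnion.2 ⟨⟨σ, hσ⟩, hxσ⟩

/-- filling one cell -/
theorem ge_fill_cell {Y : Type*} [TopologicalSpace Y] {S : Set Y} {k : ℕ} (hS : ge_Fill k S)
    (a : ι → ℤ) (J : Finset ι) (hk : J.card = k) (f : (ι → ℝ) → Y)
    (hf : ContinuousOn f (ge_cell a J \ ge_ocell a J)) (hm : MapsTo f (ge_cell a J \ ge_ocell a J) S) :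
    ∃ G : (ι → ℝ) → Y, ContinuousOn G (ge_cell a J) ∧ MapsTo G (ge_cell a J) S ∧
      EqOn G f (ge_cell a J \ ge_ocell a J) := by
  classical
  obtain ⟨e⟩ : Nonempty (J ≃ Fin k) := ⟨J.equivFinOfCardEq hk⟩
  obtain ⟨φ, hφ⟩ : ∃ φ : (Fin k → ℝ) → (ι → ℝ), φ = fun t i => if h : i ∈ J then (a i : ℝ) + t (e ⟨i, h⟩) else a i := ⟨_, rfl⟩
  obtain ⟨ψ, hψ⟩ : ∃ ψ : (ι → ℝ) → (Fin k → ℝ), ψ = fun (x : ι → ℝ) (l : Fin k) => x (e.symm l) - a (e.symm l) := ⟨_, rfl⟩
  have φin : ∀ t i (h : i ∈ J), φ t i = (a i : ℝ) + t (e ⟨i, h⟩) := fun t i h => by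
    rw [hφ]
    exact dif_pos h
  have φout : ∀ t i (_ : i ∉ J), φ t i = (a i : ℝ) := fun t i h => by
    rw [hφ]
    exact dif_neg h
  have ψap : ∀ x l, ψ x l = x (e.symm l) - a (e.symm l) := fun x l => by rw [hψ]
  have hφc : Continuous φ := by
    refine continuous_pi fun i => ?_
    by_cases h : i ∈ J
    · have : (fun t => φ t i) = fun t => (a i : ℝ) + t (e ⟨i, h⟩) := funext fun t => φin t i h
      rw [this]
      exact continuous_const.add (continuous_apply _)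
    · have : (fun t => φ t i) = fun _ => (a i : ℝ) := funext fun t => φout t i h
      rw [this]
      exact continuous_const
  have hψc : Continuous ψ := by
    rw [hψ]
    exact continuous_pi fun l => (continuous_apply _).sub continuous_const
  have hφψ : ∀ x ∈ ge_cell a J, φ (ψ x) = x := by
    intro x hx
    funext i
    by_cases h : i ∈ J
    · rw [φin _ i h, ψap]
      simp
    · rw [φout _ i h, (hx i).2 h]
  have hφ1 : MapsTo φ (ge_cbd k) (ge_cell a J \ ge_ocell a J) := by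
    rintro t ⟨⟨t0, t1⟩, l, hl⟩
    constructor
    · intro i
      refine ⟨fun h => ?_, fun h => φout t i h⟩
      rw [φin t i h]
      have p0 := t0 (e ⟨i, h⟩)
      have p1 := t1 (e ⟨i, h⟩)
      simp only [Pi.zero_apply, Pi.one_apply] at p0 p1
      exact ⟨by linarith, by linarith⟩
    · intro hc
      have h := (e.symm l).2
      obtain ⟨q0, q1⟩ := (hc (e.symm l)).1 h
      rw [φin t _ h] at q0 q1
      have : e ⟨(e.symm l : ι), h⟩ = l := by simp
      rw [this] at q0 q1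
      rcases hl with hl | hl
      · rw [hl] at q0
        linarith
      · rw [hl] at q1
        linarith
  have hψ1 : MapsTo ψ (ge_cell a J) (ge_cube k) := by
    intro x hx
    constructor
    · intro l
      rw [ψap]
      have := (ge_cell_bounds hx (e.symm l)).1
      simp only [Pi.zero_apply]
      linarith
    · intro l
      rw [ψap]
      have := (ge_cell_bounds hx (e.symm l)).2
      simp only [Pi.one_apply]
      linarith
  have hψ2 : MapsTo ψ (ge_cell a J \ ge_ocell a J) (ge_cbd k) := by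
    rintro x ⟨hx, hn⟩
    refine ⟨hψ1 hx, ?_⟩
    by_contra hc
    push Not at hc
    refine hn fun i => ⟨fun hi => ?_, (hx i).2⟩
    obtain ⟨p1, p2⟩ := (hx i).1 hi
    obtain ⟨q1, q2⟩ := hc (e ⟨i, hi⟩)
    rw [ψap] at q1 q2
    have : ((e.symm (e ⟨i, hi⟩) : J) : ι) = i := by simp
    rw [this] at q1 q2
    refine ⟨lt_of_le_of_ne p1 fun h => q1 (by rw [h]; ring), lt_of_le_of_ne p2 fun h => q2 (by rw [h]; ring)⟩
  obtain ⟨F, hF1, hF2, hF3⟩ := hS (f ∘ φ) (hf.comp hφc.continuousOn hφ1) (hm.comp hφ1)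
  refine ⟨F ∘ ψ, hF1.comp hψc.continuousOn hψ1, hF2.comp hψ1, fun x hx => ?_⟩
  show F (ψ x) = f x
  rw [hF3 (hψ2 hx)]
  show f (φ (ψ x)) = f x
  rw [hφψ x hx.1]

/-- `L` together with the cells of `K` of dimension `< j` -/
def ge_sk (K L : Set (ι → ℝ)) (j : ℕ) : Set (ι → ℝ) :=
  L ∪ {x | ∃ (a : ι → ℤ) (J : Finset ι), J.card < j ∧ ge_cell a J ⊆ K ∧ x ∈ ge_cell a J}

theorem ge_step [Fintype ι] {Y : Type*} [TopologicalSpace Y] {S : Set Y} {K L : Set (ι → ℝ)} (hL : ge_Cellular L)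
    {j : ℕ} (hS : ge_Fill j S) {F : (ι → ℝ) → Y} (hF : ContinuousOn F (ge_sk K L j)) (hm : MapsTo F (ge_sk K L j) S) :
    ∃ F' : (ι → ℝ) → Y, ContinuousOn F' (ge_sk K L (j + 1)) ∧ MapsTo F' (ge_sk K L (j + 1)) S ∧ EqOn F' F (ge_sk K L j) := by
  classical
  have hbd : ∀ (a : ι → ℤ) (J : Finset ι), J.card = j → ge_cell a J ⊆ K → ge_cell a J \ ge_ocell a J ⊆ ge_sk K L j := by
    rintro a J hJ hK x ⟨hx, hn⟩
    obtain ⟨b, i, hi, hxb, hsub⟩ := ge_bd hx hn
    exact Or.inr ⟨b, J.erase i, by rw [← hJ]; exact Finset.card_erase_lt_of_mem hi, hsub.trans hK, hxb⟩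
  have hex : ∀ σ : (ι → ℤ) × Finset ι, ∃ G : (ι → ℝ) → Y, σ.2.card = j → ge_cell σ.1 σ.2 ⊆ K →
      ContinuousOn G (ge_cell σ.1 σ.2) ∧ MapsTo G (ge_cell σ.1 σ.2) S ∧ EqOn G F (ge_cell σ.1 σ.2 \ ge_ocell σ.1 σ.2) := by
    intro σ
    by_cases h : σ.2.card = j ∧ ge_cell σ.1 σ.2 ⊆ K
    · obtain ⟨G, hG⟩ := ge_fill_cell hS σ.1 σ.2 h.1 F (hF.mono (hbd _ _ h.1 h.2)) (hm.mono_left (hbd _ _ h.1 h.2))
      exact ⟨G, fun _ _ => hG⟩
    · exact ⟨F, fun h1 h2 => absurd ⟨h1, h2⟩ h⟩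
  choose g hg using hex
  obtain ⟨F', hF'⟩ : ∃ F' : (ι → ℝ) → Y, F' = fun x => if x ∈ ge_sk K L j then F x else g (ge_fl x, ge_fr x) x := ⟨_, rfl⟩
  have Fin : ∀ x ∈ ge_sk K L j, F' x = F x := fun x hx => by
    rw [hF']
    exact if_pos hx
  have Fout : ∀ x, x ∉ ge_sk K L j → F' x = g (ge_fl x, ge_fr x) x := fun x hx => by
    rw [hF']
    exact if_neg hx
  have key : ∀ (a : ι → ℤ) (J : Finset ι), J.card = j → ge_cell a J ⊆ K → ¬ (ge_cell a J ⊆ ge_sk K L j) →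
      EqOn F' (g (a, J)) (ge_cell a J) := by
    intro a J hJ hK hnot x hx
    by_cases hxo : x ∈ ge_ocell a J
    · have hxs : x ∉ ge_sk K L j := by
        rintro (hs | ⟨b, I, hI, -, hxb⟩)
        · obtain ⟨b, I, hb, hbL⟩ := hL x hs
          exact hnot ((ge_ocell_cell hxo hb).2.trans (hbL.trans subset_union_left))
        · have := Finset.card_le_card (ge_ocell_cell hxo hxb).1
          omega
      obtain ⟨c1, c2⟩ := ge_ocell_unique (ge_mem_carrier x) hxo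
      rw [Fout x hxs, c1, c2]
    · have hxs : x ∈ ge_sk K L j := hbd a J hJ hK ⟨hx, hxo⟩
      rw [Fin x hxs]
      exact ((hg (a, J) hJ hK).2.2 ⟨hx, hxo⟩).symm
  have small : ∀ (a : ι → ℤ) (J : Finset ι), J.card < j + 1 → ge_cell a J ⊆ K → ¬ (ge_cell a J ⊆ ge_sk K L j) → J.card = j := by
    intro a J hJ hK hnot
    by_contra hne
    exact hnot fun x hx => Or.inr ⟨a, J, by omega, hK, hx⟩
  refine ⟨F', ?_, ?_, fun x hx => Fin x hx⟩
  · refine ge_contOn_of_cover {σ | ge_cell σ.1 σ.2 ⊆ L ∨ (σ.2.card < j + 1 ∧ ge_cell σ.1 σ.2 ⊆ K)} ?_ ?_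
    · rintro x (hx | ⟨a, J, hJ, hK, hx⟩)
      · obtain ⟨a, J, hxa, hsub⟩ := hL x hx
        exact ⟨(a, J), Or.inl hsub, hxa⟩
      · exact ⟨(a, J), Or.inr ⟨hJ, hK⟩, hx⟩
    · rintro ⟨a, J⟩ hσ
      by_cases hs : ge_cell a J ⊆ ge_sk K L j
      · exact (hF.mono hs).congr fun x hx => Fin x (hs hx)
      · rcases hσ with hσ | ⟨hJ, hK⟩
        · exact absurd (hσ.trans subset_union_left) hs
        · have hJ' := small a J hJ hK hs
          exact (hg (a, J) hJ' hK).1.congr (key a J hJ' hK hs)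
  · intro x hx
    by_cases hxs : x ∈ ge_sk K L j
    · rw [Fin x hxs]
      exact hm hxs
    · rcases hx with hx | ⟨a, J, hJ, hK, hx⟩
      · exact absurd (Or.inl hx) hxs
      · have hs : ¬ (ge_cell a J ⊆ ge_sk K L j) := fun h => hxs (h hx)
        have hJ' := small a J hJ hK hs
        rw [key a J hJ' hK hs hx]
        exact (hg (a, J) hJ' hK).2.1 hx

/-- **GRID EXTENSION** -/
theorem ge_extend [Fintype ι] {Y : Type*} [TopologicalSpace Y] {S : Set Y} {K L : Set (ι → ℝ)}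
    (hK : ge_Cellular K) (hL : ge_Cellular L) (hS : ∀ j ≤ Fintype.card ι, ge_Fill j S)
    {f : (ι → ℝ) → Y} (hf : ContinuousOn f L) (hm : MapsTo f L S) :
    ∃ F : (ι → ℝ) → Y, ContinuousOn F (K ∪ L) ∧ MapsTo F (K ∪ L) S ∧ EqOn F f L := by
  have ind : ∀ j ≤ Fintype.card ι + 1, ∃ F : (ι → ℝ) → Y, ContinuousOn F (ge_sk K L j) ∧ MapsTo F (ge_sk K L j) S ∧ EqOn F f L := by
    intro j
    induction j with
    | zero =>
      intro _
      have h0 : ge_sk K L 0 = L := by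
        ext x
        simp [ge_sk]
      rw [h0]
      exact ⟨f, hf, hm, fun x _ => rfl⟩
    | succ j ih =>
      intro hj
      obtain ⟨F, h1, h2, h3⟩ := ih (by omega)
      obtain ⟨F', g1, g2, g3⟩ := ge_step hL (hS j (by omega)) h1 h2
      exact ⟨F', g1, g2, fun x hx => (g3 (Or.inl hx)).trans (h3 hx)⟩
  obtain ⟨F, h1, h2, h3⟩ := ind _ le_rfl
  have hsub : K ∪ L ⊆ ge_sk K L (Fintype.card ι + 1) := by
    rintro x (hx | hx)
    · obtain ⟨a, J, hxa, hsub⟩ := hK x hx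
      exact Or.inr ⟨a, J, Nat.lt_succ_of_le (Finset.card_le_univ J), hsub, hxa⟩
    · exact Or.inl hx
  exact ⟨F, h1.mono hsub, h2.mono_left hsub, h3⟩

/-! ### kit: cellular sets -/

theorem ge_cellular_cell (a : ι → ℤ) (J : Finset ι) : ge_Cellular (ge_cell a J) :=
  fun _ hx => ⟨a, J, hx, Subset.rfl⟩

theorem ge_cellular_empty : ge_Cellular (∅ : Set (ι → ℝ)) := fun _ hx => absurd hx (notMem_empty _)

theorem ge_Cellular.union {K L : Set (ι → ℝ)} (hK : ge_Cellular K) (hL : ge_Cellular L) : ge_Cellular (K ∪ L) := by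
  rintro x (hx | hx)
  · obtain ⟨a, J, h1, h2⟩ := hK x hx
    exact ⟨a, J, h1, h2.trans subset_union_left⟩
  · obtain ⟨a, J, h1, h2⟩ := hL x hx
    exact ⟨a, J, h1, h2.trans subset_union_right⟩

theorem ge_cellular_iUnion {κ : Sort*} {K : κ → Set (ι → ℝ)} (hK : ∀ k, ge_Cellular (K k)) : ge_Cellular (⋃ k, K k) := by
  intro x hx
  obtain ⟨k, hk⟩ := mem_iUnion.1 hx
  obtain ⟨a, J, h1, h2⟩ := hK k x hk
  exact ⟨a, J, h1, h2.trans (subset_iUnion K k)⟩

theorem ge_cellular_sUnion {T : Set (Set (ι → ℝ))} (hT : ∀ K ∈ T, ge_Cellular K) : ge_Cellular (⋃₀ T) := by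
  rintro x ⟨K, hK, hx⟩
  obtain ⟨a, J, h1, h2⟩ := hT K hK x hx
  exact ⟨a, J, h1, h2.trans (subset_sUnion_of_mem hK)⟩

/-- the closed carrier of a point -/
theorem ge_carrier_eq [Fintype ι] (x : ι → ℝ) :
    ge_cell (ge_fl x) (ge_fr x) = {y : ι → ℝ | ∀ i, (⌊x i⌋ : ℝ) ≤ y i ∧ y i ≤ (⌈x i⌉ : ℝ)} := by
  classical
  ext y
  constructor
  · intro hy i
    by_cases hi : i ∈ ge_fr x
    · have hne : x i ≠ ⌊x i⌋ := by simpa [ge_fr] using hi
      have hc : ⌈x i⌉ = ⌊x i⌋ + 1 := by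
        refine Int.ceil_eq_iff.2 ⟨?_, ?_⟩
        · push_cast
          have := lt_of_le_of_ne (Int.floor_le (x i)) (Ne.symm hne)
          linarith
        · push_cast
          exact (Int.lt_floor_add_one _).le
      rw [hc]
      push_cast
      exact (hy i).1 hi
    · have he : x i = ⌊x i⌋ := by
        have : ¬ (x i ≠ ⌊x i⌋) := by simpa [ge_fr] using hi
        exact not_not.1 this
      have hc : ⌈x i⌉ = ⌊x i⌋ := by
        rw [he]
        simp
      rw [hc, (hy i).2 hi]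
      exact ⟨le_rfl, le_rfl⟩
  · intro hy i
    constructor
    · intro _
      refine ⟨(hy i).1, (hy i).2.trans ?_⟩
      have : ⌈x i⌉ ≤ ⌊x i⌋ + 1 := Int.ceil_le_floor_add_one _
      have h2 : ((⌈x i⌉ : ℤ) : ℝ) ≤ ((⌊x i⌋ + 1 : ℤ) : ℝ) := by exact_mod_cast this
      push_cast at h2
      exact h2
    · intro hi
      have he : x i = ⌊x i⌋ := by
        have : ¬ (x i ≠ ⌊x i⌋) := by simpa [ge_fr] using hi
        exact not_not.1 this
      have hc : ⌈x i⌉ = ⌊x i⌋ := by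
        rw [he]
        simp
      have h1 := hy i
      rw [hc] at h1
      exact le_antisymm h1.2 h1.1

/-- cellular = contains the closed carrier of each of its points -/
theorem ge_cellular_iff [Fintype ι] {K : Set (ι → ℝ)} :
    ge_Cellular K ↔ ∀ x ∈ K, {y : ι → ℝ | ∀ i, (⌊x i⌋ : ℝ) ≤ y i ∧ y i ≤ (⌈x i⌉ : ℝ)} ⊆ K := by
  constructor
  · intro h x hx
    obtain ⟨a, J, h1, h2⟩ := h x hx
    rw [← ge_carrier_eq]
    exact (ge_ocell_cell (ge_mem_carrier x) h1).2.trans h2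
  · intro h x hx
    refine ⟨ge_fl x, ge_fr x, ge_ocell_sub _ _ (ge_mem_carrier x), ?_⟩
    rw [ge_carrier_eq]
    exact h x hx

theorem ge_cellular_univ [Fintype ι] : ge_Cellular (univ : Set (ι → ℝ)) :=
  ge_cellular_iff.2 fun _ _ => subset_univ _

/-- boxes with integer corners -/
theorem ge_cellular_box [Fintype ι] (p q : ι → ℤ) : ge_Cellular {x : ι → ℝ | ∀ i, (p i : ℝ) ≤ x i ∧ x i ≤ q i} := by
  refine ge_cellular_iff.2 fun x hx y hy i => ?_
  have h1 : p i ≤ ⌊x i⌋ := Int.le_floor.2 (hx i).1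
  have h2 : ⌈x i⌉ ≤ q i := Int.ceil_le.2 (hx i).2
  have h1' : (p i : ℝ) ≤ ⌊x i⌋ := by exact_mod_cast h1
  have h2' : (⌈x i⌉ : ℝ) ≤ q i := by exact_mod_cast h2
  exact ⟨h1'.trans (hy i).1, (hy i).2.trans h2'⟩

theorem ge_Cellular.inter [Fintype ι] {K L : Set (ι → ℝ)} (hK : ge_Cellular K) (hL : ge_Cellular L) : ge_Cellular (K ∩ L) :=
  ge_cellular_iff.2 fun x hx => subset_inter (ge_cellular_iff.1 hK x hx.1) (ge_cellular_iff.1 hL x hx.2)

theorem ge_Cellular.isClosed [Finite ι] {K : Set (ι → ℝ)} (hK : ge_Cellular K) : IsClosed K := by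
  have h1 : LocallyFinite (fun σ : {σ : (ι → ℤ) × Finset ι // ge_cell σ.1 σ.2 ⊆ K} => ge_cell σ.1.1 σ.1.2) :=
    (ge_locFin (ι := ι)).comp_injective Subtype.val_injective
  have h2 : K = ⋃ σ : {σ : (ι → ℤ) × Finset ι // ge_cell σ.1 σ.2 ⊆ K}, ge_cell σ.1.1 σ.1.2 := by
    refine Subset.antisymm (fun x hx => ?_) (iUnion_subset fun σ => σ.2)
    obtain ⟨a, J, h3, h4⟩ := hK x hx
    exact mem_iUnion.2 ⟨⟨(a, J), h4⟩, h3⟩
  rw [h2]
  exact h1.isClosed_iUnion fun σ => ge_cell_closed _ _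

/-- the union of the closed unit cubes which meet `A` -/
def ge_star (A : Set (ι → ℝ)) : Set (ι → ℝ) :=
  {x | ∃ a : ι → ℤ, (∀ i, (a i : ℝ) ≤ x i ∧ x i ≤ a i + 1) ∧ ∃ y ∈ A, ∀ i, (a i : ℝ) ≤ y i ∧ y i ≤ a i + 1}

theorem ge_subset_star (A : Set (ι → ℝ)) : A ⊆ ge_star A := fun x hx =>
  ⟨ge_fl x, fun _ => ⟨Int.floor_le _, (Int.lt_floor_add_one _).le⟩, x, hx,
    fun _ => ⟨Int.floor_le _, (Int.lt_floor_add_one _).le⟩⟩

theorem ge_cellular_star [Fintype ι] (A : Set (ι → ℝ)) : ge_Cellular (ge_star A) := by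
  rintro x ⟨a, hx, hy⟩
  refine ⟨a, Finset.univ, fun i => ⟨fun _ => hx i, fun h => absurd (Finset.mem_univ i) h⟩, fun z hz => ?_⟩
  exact ⟨a, fun i => (hz i).1 (Finset.mem_univ i), hy⟩

theorem ge_star_dist [Fintype ι] {A : Set (ι → ℝ)} {x : ι → ℝ} (hx : x ∈ ge_star A) : ∃ y ∈ A, dist x y ≤ 1 := by
  obtain ⟨a, hx, y, hy, hya⟩ := hx
  refine ⟨y, hy, (dist_pi_le_iff zero_le_one).2 fun i => ?_⟩
  rw [Real.dist_eq, abs_le]
  have h1 := hx i
  have h2 := hya i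
  exact ⟨by linarith, by linarith⟩

/-- **grid extension at mesh `δ`**, from the `δ`-star of `A` to the whole space -/
theorem ge_extend_mesh [Fintype ι] {Y : Type*} [TopologicalSpace Y] {S : Set Y} (hS : ∀ j ≤ Fintype.card ι, ge_Fill j S)
    {δ : ℝ} (hδ : 0 < δ) (A : Set (ι → ℝ)) {f : (ι → ℝ) → Y}
    (hf : ContinuousOn f {x | ∃ y ∈ A, dist x y ≤ δ}) (hm : MapsTo f {x | ∃ y ∈ A, dist x y ≤ δ} S) :
    ∃ F : (ι → ℝ) → Y, Continuous F ∧ (∀ x, F x ∈ S) ∧ EqOn F f A := by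
  obtain ⟨A', hA'⟩ : ∃ A' : Set (ι → ℝ), A' = {x | δ • x ∈ A} := ⟨_, rfl⟩
  have hsc : Continuous fun x : ι → ℝ => δ • x := continuous_const_smul δ
  have hmap : MapsTo (fun x : ι → ℝ => δ • x) (ge_star A') {x | ∃ y ∈ A, dist x y ≤ δ} := by
    intro x hx
    obtain ⟨y, hy, hxy⟩ := ge_star_dist hx
    rw [hA'] at hy
    refine ⟨δ • y, hy, ?_⟩
    rw [dist_smul₀, Real.norm_of_nonneg hδ.le]
    calc δ * dist x y ≤ δ * 1 := mul_le_mul_of_nonneg_left hxy hδ.le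
      _ = δ := mul_one δ
  obtain ⟨F, h1, h2, h3⟩ := ge_extend (ge_cellular_univ (ι := ι)) (ge_cellular_star A') hS
    (f := fun x => f (δ • x)) (hf.comp hsc.continuousOn hmap) (hm.comp hmap)
  rw [univ_union] at h1 h2
  refine ⟨fun x => F (δ⁻¹ • x), (continuousOn_univ.1 h1).comp (continuous_const_smul δ⁻¹), fun x => h2 (mem_univ _), fun x hx => ?_⟩
  have h4 : δ • δ⁻¹ • x = x := by rw [smul_smul, mul_inv_cancel₀ hδ.ne', one_smul]
  have h5 : δ⁻¹ • x ∈ A' := by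
    rw [hA']
    show δ • δ⁻¹ • x ∈ A
    rw [h4]
    exact hx
  have h6 := h3 (ge_subset_star A' h5)
  show F (δ⁻¹ • x) = f x
  rw [h6]
  show f (δ • δ⁻¹ • x) = f x
  rw [h4]

end

end Claimed.Agent.R314
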